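import Vale.Agent.Lib.P338.RedO
import Vale.Agent.Lib.P338.RedGap

/-!
# P338: integer multiplication is at least as hard as matrix transposition

Deterministic multitape Turing machines. `A.mulTime n` is the worst-case running time of a machine
`A` that multiplies, on pairs of numbers with `n` digits, `B.transTime n` is the worst-case running
time of a machine `B` that transposes, on `n × n` matrices of bits.
-/

namespace Vale.Agent.Results.P338.MulTranspose

open Vale.Agent.P338 Filter Asymptotics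

theorem result :
    -- the reduction, with an explicit bound
    (∀ A : TM, A.Multiplies → ∃ B : TM, B.Transposes ∧ ∃ C : ℝ, ∀ n : ℕ, 1 ≤ n →
      (B.transTime n : ℝ) ≤ C * (n : ℝ) ^ 2 *
        (1 + ∑ i ∈ Finset.Icc 1 (Nat.log 2 (Nat.clog 2 n)),
          (1 + min ((Nat.clog 2 n / 2 ^ i : ℕ) : ℝ)
                ((A.mulTime (14 * 8 ^ (Nat.clog 2 n / 2 ^ i)) : ℝ) /
                  8 ^ (Nat.clog 2 n / 2 ^ i)) +
              min ((Nat.clog 2 n / 2 ^ i : ℕ) : ℝ)
                ((A.mulTime (14 * 16 ^ (Nat.clog 2 n / 2 ^ i)) : ℝ) /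
                  16 ^ (Nat.clog 2 n / 2 ^ i))))) ∧
    -- fast multiplication gives fast transposition
    (∀ A : TM, A.Multiplies →
      (fun n : ℕ => (A.mulTime n : ℝ)) =o[atTop] (fun n : ℕ => (n : ℝ) * Real.log n) →
      ∃ B : TM, B.Transposes ∧
        (fun n : ℕ => (B.transTime n : ℝ)) =o[atTop] (fun n : ℕ => (n : ℝ) ^ 2 * Real.log n)) ∧
    -- if all transposing machines need `Ω(n ^ 2 log n)` steps, then multiplication is `Ω(n log n)`
    ((∀ B : TM, B.Transposes → ∃ c : ℝ, 0 < c ∧ ∀ᶠ n : ℕ in atTop,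
        c * (n : ℝ) ^ 2 * Real.log n ≤ B.transTime n) →
      ∀ A : TM, A.Multiplies →
        (∃ δ : ℝ, 0 < δ ∧ ∃ c : ℝ, 0 < c ∧ ∀ᶠ x : ℕ in atTop, ∃ n : ℕ,
          (x : ℝ) ^ δ ≤ n ∧ n ≤ x ∧ c * n * Real.log n ≤ A.mulTime n) ∧
        (∀ F : ℕ → ℝ, (∀ n, 1 ≤ n → (A.mulTime n : ℝ) ≤ F n) →
          (∀ m n : ℕ, 1 ≤ m → m ≤ n → F m / m ≤ F n / n) →
          ∃ c : ℝ, 0 < c ∧ ∀ᶠ n : ℕ in atTop, c * n * Real.log n ≤ F n)) := by
  refine ⟨?_, ?_, ?_⟩
  · intro A hA
    exact reduction A hA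
  · intro A hA h
    exact reduction_o A hA h
  · intro H A hA
    refine ⟨reduction_gap H A hA, ?_⟩
    intro F hF hm
    exact reduction_Omega H A hA F hF hm

end Vale.Agent.Results.P338.MulTranspose
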