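import Vale.Agent.Lib.P338.V2Reduct
import Vale.Agent.Lib.P338.V2Asym

/-!
# P338: integer multiplication is at least as hard as matrix transposition (sharp form)

Deterministic multitape Turing machines. `A.mulTime n` is the worst-case running time of a machine
`A` that multiplies, on pairs of numbers with `n` digits, `B.transTime n` is the worst-case running
time of a machine `B` that transposes, on `n × n` matrices of bits.
-/

namespace Vale.Agent.Results.P338.MulTransposeSharp

open Vale.Agent.P338 Filter Asymptotics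

theorem result :
    -- the reduction, with an explicit bound
    (∀ A : TM, A.Multiplies → ∃ B : TM, B.Transposes ∧ ∃ C : ℝ, 0 < C ∧ ∀ n : ℕ, 1 ≤ n → ∀ r : ℕ,
      (B.transTime n : ℝ) ≤
        C * ((n : ℝ) ^ 2 * (1 + Nat.log 2 (Nat.clog 2 n) + Nat.clog 2 n / 2 ^ r) +
          r * A.mulTime (112 * n ^ 2))) ∧
    -- fast multiplication gives fast transposition
    (∀ A : TM, A.Multiplies →
      (fun n : ℕ => (A.mulTime n : ℝ)) =o[atTop] (fun n : ℕ => (n : ℝ) * Real.log n) →
      ∃ B : TM, B.Transposes ∧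
        (fun n : ℕ => (B.transTime n : ℝ)) =o[atTop] (fun n : ℕ => (n : ℝ) ^ 2 * Real.log n)) ∧
    -- if every transposing machine needs at least `c n ^ 2 log n` steps for large `n`, then every
    -- multiplying machine needs at least `c N log N` steps for all large `N = 112 n ^ 2`, and for
    -- all large `N` if its running time is nondecreasing (or bounded by a nondecreasing `F`)
    ((∀ B : TM, B.Transposes → ∃ c : ℝ, 0 < c ∧ ∀ᶠ n : ℕ in atTop,
        c * (n : ℝ) ^ 2 * Real.log n ≤ B.transTime n) →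
      ∀ A : TM, A.Multiplies →
        (∃ c : ℝ, 0 < c ∧ ∀ᶠ n : ℕ in atTop,
          c * (n : ℝ) ^ 2 * Real.log n ≤ A.mulTime (112 * n ^ 2)) ∧
        (∀ F : ℕ → ℝ, (∀ n, 1 ≤ n → (A.mulTime n : ℝ) ≤ F n) →
          (∀ m n : ℕ, 1 ≤ m → m ≤ n → F m ≤ F n) →
          ∃ c : ℝ, 0 < c ∧ ∀ᶠ n : ℕ in atTop, c * n * Real.log n ≤ F n)) := by
  refine ⟨?_, ?_, ?_⟩
  · intro A hA
    exact reductionV A hA
  · intro A hA h
    obtain ⟨B, hB, C, hC, hb⟩ := reductionV A hA
    exact ⟨B, hB, boundV_o (T := fun n => (B.transTime n : ℝ))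
      (M := fun n => (A.mulTime n : ℝ)) hC (fun n => Nat.cast_nonneg _) hb h⟩
  · intro H A hA
    obtain ⟨B, hB, C, hC, hb⟩ := reductionV A hA
    obtain ⟨c, hc, hΩ⟩ := H B hB
    obtain ⟨c', hc', h'⟩ := boundV_Omega (T := fun n => (B.transTime n : ℝ))
      (M := fun n => (A.mulTime n : ℝ)) hC hc hb hΩ
    refine ⟨⟨c', hc', h'⟩, ?_⟩
    intro F hF hm
    exact mono_Omega (M := fun n => (A.mulTime n : ℝ)) hc' h' hF hm

end Vale.Agent.Results.P338.MulTransposeSharp
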