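import Vale.Agent.Lib.P338.V2Reduct
import Vale.Agent.Lib.P338.V2Asym

/-!
# P338: multiplying integers is at least as hard as transposing bit matrices (time bounds)

The machines are the deterministic multitape Turing machines `TM` of `Lib/P338/Defs.lean` (finitely
many states, symbols and one-way infinite tapes; `TM.init w` is the configuration with the word `w`
on the first tape, all other cells blank and all heads on the leftmost cell; `TM.run t` makes `t`
steps; `TM.step c = none` says that the machine has halted).  Here everything is expressed with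
time bounds `T : ℕ → ℕ`: a machine multiplies (transposes) in time `T` if on every input of size `n`
it has halted after `T n` steps with the right output.
-/

namespace Vale.Agent.Results.P338.TimeBounds

open Vale.Agent.P338 Filter Asymptotics

/-- Started on the word `w`, the machine has halted after `t` steps, and then its output tape
contains the word `w'` (in the cells `0, 1, ...`) and blanks. -/
def Yields (M : TM) (w w' : List M.Γ) (t : ℕ) : Prop :=
  M.step (M.run t (M.init w)) = none ∧
    ∀ p, (M.run t (M.init w)).tape M.out p = w'.getD p M.blank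

/-- The value of a binary string of length `n`, leftmost bit most significant. -/
def value {n : ℕ} (x : Fin n → Bool) : ℕ := ∑ i : Fin n, (x i).toNat * 2 ^ (n - 1 - (i : ℕ))

/-- The binary representation of `z` with `k` digits, leftmost digit most significant. -/
def digits (k z : ℕ) : Fin k → Bool := fun i => z.testBit (k - 1 - (i : ℕ))

/-- A binary string as a word over the alphabet of the machine. -/
def word (M : TM) {n : ℕ} (x : Fin n → Bool) : List M.Γ := (List.ofFn x).map M.bit

/-- The machine multiplies in time `T`: for all `n ≥ 1` and `x`, `y` of length `n`, on the input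
`x # y` it has halted after `T n` steps with the product, written with `2 n` digits. -/
def MultipliesIn (M : TM) (T : ℕ → ℕ) : Prop :=
  ∀ n, 1 ≤ n → ∀ x y : Fin n → Bool,
    Yields M (word M x ++ [M.sep] ++ word M y) (word M (digits (2 * n) (value x * value y))) (T n)

/-- The rows of a matrix of bits, one after the other. -/
def rows {n : ℕ} (X : Matrix (Fin n) (Fin n) Bool) : Fin (n * n) → Bool :=
  fun k => X k.divNat k.modNat

/-- The machine transposes in time `T`: for all `n ≥ 1` and all `n × n` matrices `X` of bits, on the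
rows of `X` it has halted after `T n` steps with the rows of the transposed matrix. -/
def TransposesIn (M : TM) (T : ℕ → ℕ) : Prop :=
  ∀ n, 1 ≤ n → ∀ X : Matrix (Fin n) (Fin n) Bool,
    Yields M (word M (rows X)) (word M (rows X.transpose)) (T n)

/-! ### comparison with `Lib/P338/Defs.lean` -/

private theorem run_succ (M : TM) (t : ℕ) (c : M.Cfg) :
    M.run (t + 1) c = (M.step (M.run t c)).getD (M.run t c) := by
  unfold TM.run
  rw [Function.iterate_succ_apply']

private theorem run_stable (M : TM) {s t : ℕ} (h : s ≤ t) (c : M.Cfg)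
    (hs : M.step (M.run s c) = none) : M.run t c = M.run s c := by
  induction t, h using Nat.le_induction with
  | base => rfl
  | succ t _ ih => rw [run_succ, ih, hs, Option.getD_none]

private theorem Yields.mono {M : TM} {w w' : List M.Γ} {s t : ℕ} (h : Yields M w w' s)
    (hst : s ≤ t) : Yields M w w' t := by
  unfold Yields
  rw [run_stable M hst _ h.1]
  exact h

private theorem yields_iff (M : TM) (w w' : List M.Γ) (t : ℕ) :
    Yields M w w' t ↔ ∃ c, M.HaltsWithin w t c ∧ M.Outputs c w' :=
  ⟨fun h => ⟨_, ⟨rfl, h.1⟩, h.2⟩, fun ⟨_, ⟨hc, h1⟩, h2⟩ => by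
    subst hc
    exact ⟨h1, h2⟩⟩

private theorem time_le {M : TM} {w w' : List M.Γ} {t : ℕ} (h : Yields M w w' t) :
    M.time w ≤ t :=
  Nat.sInf_le ⟨_, rfl, h.1⟩

/-- a machine that halts with the right output does so at the time `M.time w` -/
private theorem yields_time {M : TM} {w w' : List M.Γ} {t : ℕ} (h : Yields M w w' t) :
    Yields M w w' (M.time w) := by
  have h1 : M.time w ∈ {t | ∃ c, M.HaltsWithin w t c} := Nat.sInf_mem ⟨t, _, rfl, h.1⟩
  obtain ⟨c, hc, h2⟩ := h1
  have h3 : M.step (M.run (M.time w) (M.init w)) = none := by rw [hc]; exact h2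
  have h4 := run_stable M (time_le h) (M.init w) h3
  refine ⟨h3, fun p => ?_⟩
  rw [← h4]
  exact h.2 p

private theorem value_eq {n : ℕ} (x : Fin n → Bool) : val (List.ofFn x) = value x := by
  induction n with
  | zero => simp [val, value]
  | succ n ih =>
    have h : ∀ (l : List Bool) (b : Bool), val (l ++ [b]) = 2 * val l + b.toNat := by
      intro l b
      unfold val
      rw [List.foldl_append]
      rfl
    rw [List.ofFn_succ', List.concat_eq_append, h, ih]
    unfold value
    rw [Fin.sum_univ_castSucc, Finset.mul_sum]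
    congr 1
    · refine Finset.sum_congr rfl fun i _ => ?_
      have hi := i.2
      have e : n + 1 - 1 - ((Fin.castSucc i : Fin (n + 1)) : ℕ) = n - 1 - (i : ℕ) + 1 := by
        rw [Fin.val_castSucc]
        omega
      rw [e, pow_succ]
      ring
    · have e : n + 1 - 1 - ((Fin.last n : Fin (n + 1)) : ℕ) = 0 := by
        rw [Fin.val_last]
        omega
      rw [e, pow_zero, mul_one]

private theorem digits_eq (k z : ℕ) : List.ofFn (digits k z) = bin k z := by
  refine List.ext_getElem (by simp [bin]) fun i h1 h2 => ?_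
  simp [bin, digits]

private theorem rows_transpose {n : ℕ} (X : Matrix (Fin n) (Fin n) Bool) :
    List.ofFn (rows X.transpose) = transpose n (List.ofFn (rows X)) := by
  refine List.ext_getElem (by simp [transpose]) fun i h1 h2 => ?_
  have hi : i < n * n := by simpa using h1
  have hn : 0 < n := by
    rcases Nat.eq_zero_or_pos n with h0 | h0
    · subst h0
      simp at hi
    · exact h0
  have hd : i / n < n := Nat.div_lt_of_lt_mul hi
  have hm : i % n < n := Nat.mod_lt _ hn
  have hk : i % n * n + i / n < n * n := by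
    calc i % n * n + i / n < i % n * n + n := by omega
      _ = (i % n + 1) * n := by ring
      _ ≤ n * n := Nat.mul_le_mul_right _ hm
  have hk' : i % n * n + i / n < (List.ofFn (rows X)).length := by simpa using hk
  simp only [transpose, List.getElem_map, List.getElem_range, List.getElem_ofFn]
  rw [List.getD_eq_getElem _ _ hk', List.getElem_ofFn]
  unfold rows Matrix.transpose
  simp only [Matrix.of_apply]
  have e1 : (⟨i % n * n + i / n, hk⟩ : Fin (n * n)).divNat = (⟨i, hi⟩ : Fin (n * n)).modNat := by
    apply Fin.ext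
    simp only [Fin.coe_divNat, Fin.coe_modNat]
    rw [Nat.add_div_of_dvd_right (Dvd.intro_left _ rfl), Nat.mul_div_cancel _ hn,
      Nat.div_eq_of_lt hd, add_zero]
  have e2 : (⟨i % n * n + i / n, hk⟩ : Fin (n * n)).modNat = (⟨i, hi⟩ : Fin (n * n)).divNat := by
    apply Fin.ext
    simp only [Fin.coe_divNat, Fin.coe_modNat]
    rw [Nat.mul_add_mod_self_right, Nat.mod_eq_of_lt hd]
  rw [← e1, ← e2]

private theorem rows_surj {n : ℕ} (f : Fin (n * n) → Bool) :
    ∃ X : Matrix (Fin n) (Fin n) Bool, rows X = f := by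
  refine ⟨Matrix.of fun i j => f (finProdFinEquiv (i, j)), ?_⟩
  funext k
  unfold rows
  simp only [Matrix.of_apply]
  congr 1
  have h := finProdFinEquiv.apply_symm_apply k
  exact h

private theorem exists_ofFn {n : ℕ} (x : List Bool) (hx : x.length = n) :
    ∃ f : Fin n → Bool, List.ofFn f = x := by
  subst hx
  exact ⟨x.get, List.ofFn_get x⟩

private theorem multiplies_of {M : TM} {T : ℕ → ℕ} (h : MultipliesIn M T) : M.Multiplies := by
  intro n hn x y hx hy
  obtain ⟨f, rfl⟩ := exists_ofFn x hx
  obtain ⟨g, rfl⟩ := exists_ofFn y hy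
  have h1 := h n hn f g
  unfold word at h1
  rw [digits_eq, ← value_eq, ← value_eq] at h1
  exact ⟨T n, (yields_iff M _ _ _).1 h1⟩

private theorem mulTime_le {M : TM} {T : ℕ → ℕ} (h : MultipliesIn M T) {n : ℕ} (hn : 1 ≤ n) :
    M.mulTime n ≤ T n :=
  Finset.sup_le fun p _ => time_le (h n hn p.1 p.2)

private theorem transposesIn_of {M : TM} (h : M.Transposes) : TransposesIn M M.transTime := by
  intro n hn X
  obtain ⟨t, c, h1, h2⟩ := h n hn (List.ofFn (rows X)) (List.length_ofFn)
  rw [← rows_transpose] at h2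
  have h3 : Yields M (word M (rows X)) (word M (rows X.transpose)) t :=
    (yields_iff M _ _ _).2 ⟨c, h1, h2⟩
  refine (yields_time h3).mono ?_
  exact Finset.le_sup (f := fun x : Fin (n * n) → Bool => M.time ((List.ofFn x).map M.bit))
    (Finset.mem_univ (rows X))

theorem result :
    -- the reduction, with an explicit bound: from a machine multiplying in time `T` one gets a
    -- machine transposing in time `T'`
    (∀ (A : TM) (T : ℕ → ℕ), MultipliesIn A T → ∃ (B : TM) (T' : ℕ → ℕ) (C : ℝ),
      TransposesIn B T' ∧ 0 < C ∧ ∀ n : ℕ, 1 ≤ n → ∀ r : ℕ,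
        (T' n : ℝ) ≤ C * ((n : ℝ) ^ 2 * (1 + Nat.log 2 (Nat.clog 2 n) + Nat.clog 2 n / 2 ^ r) +
          r * T (112 * n ^ 2))) ∧
    -- if one can multiply in time `o(n log n)`, then one can transpose in time `o(n ^ 2 log n)`
    (∀ (A : TM) (T : ℕ → ℕ), MultipliesIn A T →
      (fun n : ℕ => (T n : ℝ)) =o[atTop] (fun n : ℕ => (n : ℝ) * Real.log n) →
      ∃ (B : TM) (T' : ℕ → ℕ), TransposesIn B T' ∧
        (fun n : ℕ => (T' n : ℝ)) =o[atTop] (fun n : ℕ => (n : ℝ) ^ 2 * Real.log n)) ∧
    -- if every time bound of a machine that transposes is at least `c n ^ 2 log n` for large `n`,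
    -- then every time bound `T` of a machine that multiplies is at least `c N log N` for all large
    -- `N = 112 n ^ 2`, and for all large `N` if `T` is nondecreasing
    ((∀ (B : TM) (T' : ℕ → ℕ), TransposesIn B T' →
        ∃ c : ℝ, 0 < c ∧ ∀ᶠ n : ℕ in atTop, c * (n : ℝ) ^ 2 * Real.log n ≤ T' n) →
      ∀ (A : TM) (T : ℕ → ℕ), MultipliesIn A T →
        (∃ c : ℝ, 0 < c ∧ ∀ᶠ n : ℕ in atTop, c * (n : ℝ) ^ 2 * Real.log n ≤ T (112 * n ^ 2)) ∧
        ((∀ m n : ℕ, 1 ≤ m → m ≤ n → T m ≤ T n) →
          ∃ c : ℝ, 0 < c ∧ ∀ᶠ n : ℕ in atTop, c * n * Real.log n ≤ T n)) := by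
  have key : ∀ (A : TM) (T : ℕ → ℕ), MultipliesIn A T → ∃ (B : TM) (C : ℝ),
      B.Transposes ∧ 0 < C ∧ ∀ n : ℕ, 1 ≤ n → ∀ r : ℕ,
        (B.transTime n : ℝ) ≤
          C * ((n : ℝ) ^ 2 * (1 + Nat.log 2 (Nat.clog 2 n) + Nat.clog 2 n / 2 ^ r) +
            r * T (112 * n ^ 2)) := by
    intro A T hA
    obtain ⟨B, hB, C, hC, hb⟩ := reductionV A (multiplies_of hA)
    refine ⟨B, C, hB, hC, fun n hn r => (hb n hn r).trans ?_⟩
    have h1 : (A.mulTime (112 * n ^ 2) : ℝ) ≤ T (112 * n ^ 2) := by
      have h2 : 1 ≤ 112 * n ^ 2 := Nat.mul_pos (by norm_num) (Nat.pow_pos hn)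
      exact_mod_cast mulTime_le hA h2
    have h3 : (0 : ℝ) ≤ r := Nat.cast_nonneg r
    gcongr
  refine ⟨?_, ?_, ?_⟩
  · intro A T hA
    obtain ⟨B, C, hB, hC, hb⟩ := key A T hA
    exact ⟨B, B.transTime, C, transposesIn_of hB, hC, hb⟩
  · intro A T hA h
    obtain ⟨B, C, hB, hC, hb⟩ := key A T hA
    exact ⟨B, B.transTime, transposesIn_of hB, boundV_o (T := fun n => (B.transTime n : ℝ))
      (M := fun n => (T n : ℝ)) hC (fun n => Nat.cast_nonneg _) hb h⟩
  · intro H A T hA
    obtain ⟨B, C, hB, hC, hb⟩ := key A T hA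
    obtain ⟨c, hc, hΩ⟩ := H B B.transTime (transposesIn_of hB)
    obtain ⟨c', hc', h'⟩ := boundV_Omega (T := fun n => (B.transTime n : ℝ))
      (M := fun n => (T n : ℝ)) hC hc hb hΩ
    refine ⟨⟨c', hc', h'⟩, fun hm => ?_⟩
    exact mono_Omega (M := fun n => (T n : ℝ)) (F := fun n => (T n : ℝ)) hc' h'
      (fun n _ => le_rfl) (fun m n h1 h2 => by exact_mod_cast hm m n h1 h2)

end Vale.Agent.Results.P338.TimeBounds
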